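import Vale.Agent.P167.H980.ND.WF
import Vale.Agent.P167.H640.ND.FlatLat
import Vale.Agent.P167.H640.ND.SymX
import Vale.Agent.P167.H825.Q.BdQ
import Vale.Agent.P167.H135.RotEnv
import Vale.Agent.P167.H562.Q.CB3
import Vale.Agent.P167.H411.Q.Kind

/-!
# P167, general `q`, block ND-CONT: the flat windows of the enlargements of a lattice polygon

`win_flat`: near a flat boundary point `c` of the domain there is an index `l` of the enlarged polygon
`qS S n` of prescribed parity such that after the rotation the polygon has the window `Win` of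
radius `R ≤ r n / 4` at `q l`. `win_flat_add`: the same for the translated polygon. `win_c`, `win_p`: the
windows of both families at a flat point `c` and at the base point, in the form of `H411/Q`.
-/

namespace Vale.Agent.P167.H980.ND

open Finset Filter Topology Metric Vale.Agent.P167 Vale.Agent.P167.BR
open Vale.Agent.P167.FK (Good eta0 good_eta0)
open Vale.Agent.P167.E6 (dir face IsPolygon Encloses pt)
open Vale.Agent.P167.H135 (mv isom_mv Mov nm_le_iff)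
open Vale.Agent.P167.H167.Q (hpl)
open Vale.Agent.P167.H640.ND (Mq poly_mov enc_mov nor flat_dom fin4_cases)
open Vale.Agent.P167.H436.ND (Win FltO)
open Vale.Agent.P167.H825.Q (qS qS_zero tN_lt)
open Vale.Agent.P167.BVP (Flat)
open Vale.Agent.P167.CA (Dat fs)

/-- `v` is on the line through `z` of direction `dir i`. -/
def onl (i : Fin 4) (z v : ℤ × ℤ) : Prop :=
  match i with
  | 0 => v.2 = z.2
  | 1 => v.1 = z.1
  | 2 => v.2 = z.2
  | 3 => v.1 = z.1

theorem onl_self (i : Fin 4) (z : ℤ × ℤ) : onl i z z := by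
  rcases fin4_cases i with rfl | rfl | rfl | rfl <;> rfl

theorem onl_dir (i : Fin 4) (z : ℤ × ℤ) : onl i z (z + dir i) := by
  rcases fin4_cases i with rfl | rfl | rfl | rfl <;> simp [onl, dir]

theorem hpl_face {i : Fin 4} {z v : ℤ × ℤ} (h : onl i z v) :
    hpl i z (face v i) ∧ ¬ hpl i z (face v (i - 1)) := by
  obtain ⟨x, y⟩ := v
  rcases fin4_cases i with rfl | rfl | rfl | rfl
  · have h' : y = z.2 := h
    show z.2 ≤ y + 0 ∧ ¬ z.2 ≤ y + -1
    omega
  · have h' : x = z.1 := h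
    show x + -1 < z.1 ∧ ¬ x + 0 < z.1
    omega
  · have h' : y = z.2 := h
    show y + -1 < z.2 ∧ ¬ y + 0 < z.2
    omega
  · have h' : x = z.1 := h
    show z.1 ≤ x + 0 ∧ ¬ z.1 ≤ x + -1
    omega

theorem flR_of {i : Fin 4} {D : Finset (ℤ × ℤ)} {z v : ℤ × ℤ} {R : ℤ} (h : onl i z v)
    (hD : ∀ w, nm (w - v) ≤ R → (w ∈ D ↔ hpl i z w)) : H135.FlR i D v R := by
  intro w hw
  rw [hD w hw]
  rcases fin4_cases i with rfl | rfl | rfl | rfl
  · have h' : v.2 = z.2 := h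
    show z.2 ≤ w.2 ↔ v.2 ≤ w.2
    omega
  · have h' : v.1 = z.1 := h
    show w.1 < z.1 ↔ w.1 < v.1
    omega
  · have h' : v.2 = z.2 := h
    show w.2 < z.2 ↔ w.2 < v.2
    omega
  · have h' : v.1 = z.1 := h
    show z.1 ≤ w.1 ↔ v.1 ≤ w.1
    omega

theorem flR_add {i : Fin 4} {D : Finset (ℤ × ℤ)} {u : ℤ × ℤ} {R : ℤ} (h : H135.FlR i D u R)
    (a : ℤ × ℤ) : H135.FlR i (D.image (· + a)) (u + a) R := by
  intro w hw
  rw [mem_tr']
  have e : w - a - u = w - (u + a) := by ring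
  rw [h (w - a) (by rw [e]; exact hw)]
  rcases fin4_cases i with rfl | rfl | rfl | rfl
  · show u.2 ≤ w.2 - a.2 ↔ u.2 + a.2 ≤ w.2
    omega
  · show w.1 - a.1 < u.1 ↔ w.1 < u.1 + a.1
    omega
  · show w.2 - a.2 < u.2 ↔ w.2 < u.2 + a.2
    omega
  · show u.1 ≤ w.1 - a.1 ↔ u.1 + a.1 ≤ w.1
    omega

/-- **The window after the rotation.** -/
theorem win_of {N : ℕ} {q : ZMod N → ℤ × ℤ} {D : Finset (ℤ × ℤ)} {i : Fin 4} {l : ℕ} {R : ℤ}
    (hq : IsPolygon q) (hD : Encloses q D) (hl : l < N) (hF : H135.FlR i D (q l) (R + 1))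
    (h0 : R < nm (q 0 - q l)) (a : ℤ × ℤ) (ha : Even (a.1 + a.2)) :
    Win (Mq (mv (-i) a ha) q) ((mv (-i) a ha).S D) l R where
  poly := poly_mov _ hq
  enc := enc_mov _ hD
  flat v h1 h2 h3 h4 := by
    refine hF.fl a ha v ?_
    rw [nm_le_iff]
    have e : Mq (mv (-i) a ha) q l = (mv (-i) a ha).t (q l) := rfl
    rw [e] at h1 h2 h3 h4
    simp only [Prod.fst_sub, Prod.snd_sub]
    omega
  l1 := hl
  off h := by
    by_cases hR : 1 ≤ R
    · rw [mem_sites_hbox hR] at h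
      have h1 : nm (Mq (mv (-i) a ha) q 0 - Mq (mv (-i) a ha) q l) ≤ R := by
        rw [nm_le_iff]
        simp only [Prod.fst_sub, Prod.snd_sub]
        omega
      have e : nm (Mq (mv (-i) a ha) q 0 - Mq (mv (-i) a ha) q l) = nm (q 0 - q l) :=
        (isom_mv (-i) a ha).t _ _
      omega
    · rw [mem_sites] at h
      obtain ⟨v, hv, -⟩ := h
      rw [mem_hbox] at hv
      omega

theorem c_eta0 (M : Mov) : M.c eta0 = eta0 := rfl

theorem flto0 (D : Finset (ℤ × ℤ)) (b : ℤ × ℤ) (R : ℤ) : FltO D eta0 b R false false where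
  good := good_eta0
  out v _ _ _ _ := by
    show false = if v.1 < b.1 then false else false
    split_ifs <;> rfl

/-! ### the enlargements -/

theorem fl_le (x : ℝ) : |(⌊x⌋ : ℝ) - x| ≤ 1 := by
  have h1 := Int.floor_le x
  have h2 := Int.lt_floor_add_one x
  rw [abs_le]
  constructor <;> linarith

/-- The base site is near the base point. -/
theorem near_bp (S : Dat) (n : ℕ) :
    |((S.b n).1 : ℝ) - S.bp.re * n| ≤ 1 ∧ |((S.b n).2 : ℝ) - S.bp.im * n| ≤ 1 := by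
  have h0 : 0 ≤ S.tp * (n : ℝ) := by have := S.tp0; positivity
  have h1 := Nat.floor_le h0
  have h2 := Nat.lt_floor_add_one (S.tp * (n : ℝ))
  have e1 : ((S.b n).1 : ℝ) - S.bp.re * n =
      ((⌊S.tp * n⌋₊ : ℝ) - S.tp * n) * ((dir S.r).1 : ℝ) := by
    have : (S.b n).1 = (n : ℤ) * (S.p 0).1 + (⌊S.tp * n⌋₊ : ℤ) * (dir S.r).1 := rfl
    rw [this]
    unfold Dat.bp
    simp [pt]
    ring
  have e2 : ((S.b n).2 : ℝ) - S.bp.im * n =
      ((⌊S.tp * n⌋₊ : ℝ) - S.tp * n) * ((dir S.r).2 : ℝ) := by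
    have : (S.b n).2 = (n : ℤ) * (S.p 0).2 + (⌊S.tp * n⌋₊ : ℤ) * (dir S.r).2 := rfl
    rw [this]
    unfold Dat.bp
    simp [pt]
    ring
  have hd : |((dir S.r).1 : ℝ)| ≤ 1 ∧ |((dir S.r).2 : ℝ)| ≤ 1 := by
    rcases fin4_cases S.r with h | h | h | h <;> rw [h] <;> simp [dir]
  have h3 : |(⌊S.tp * n⌋₊ : ℝ) - S.tp * n| ≤ 1 := by rw [abs_le]; constructor <;> linarith
  rw [e1, e2, abs_mul, abs_mul]
  exact ⟨mul_le_one₀ h3 (abs_nonneg _) hd.1, mul_le_one₀ h3 (abs_nonneg _) hd.2⟩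

/-- The base site is far from the flat point. -/
theorem far_bp (S : Dat) {c : ℂ} {r : ℝ} (hb : S.bp ∉ ball c r) {n : ℕ} {u : ℤ × ℤ}
    (hu : nm (u - fs n c) ≤ 1) : r * n ≤ 2 * (nm (S.b n - u) : ℝ) + 6 := by
  obtain ⟨h1, h2⟩ := near_bp S n
  rw [nm_le_iff] at hu
  simp only [Prod.fst_sub, Prod.snd_sub] at hu
  have h3 := fl_le (c.re * n)
  have h4 := fl_le (c.im * n)
  have h5 := (nm_le_iff (S.b n - u) (nm (S.b n - u))).1 le_rfl
  simp only [Prod.fst_sub, Prod.snd_sub] at h5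
  set m := nm (S.b n - u) with hm
  rw [mem_ball, dist_eq_norm, not_lt] at hb
  have h6 := Complex.norm_le_abs_re_add_abs_im (S.bp - c)
  have hn : (0 : ℝ) ≤ n := Nat.cast_nonneg n
  have e1 : |(S.bp - c).re| * n = |S.bp.re * n - c.re * n| := by
    rw [← sub_mul, abs_mul, abs_of_nonneg hn]; rfl
  have e2 : |(S.bp - c).im| * n = |S.bp.im * n - c.im * n| := by
    rw [← sub_mul, abs_mul, abs_of_nonneg hn]; rfl
  have h7 : r * n ≤ |S.bp.re * n - c.re * n| + |S.bp.im * n - c.im * n| := by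
    rw [← e1, ← e2, ← add_mul]
    exact mul_le_mul_of_nonneg_right (hb.trans h6) hn
  obtain ⟨⟨a1, a2⟩, a3, a4⟩ := hu
  obtain ⟨⟨b1, b2⟩, b3, b4⟩ := h5
  unfold fs at a1 a2 a3 a4
  simp only at a1 a2 a3 a4
  have a1' : (u.1 : ℝ) - ⌊c.re * n⌋ ≤ 1 := by exact_mod_cast a1
  have a2' : (-1 : ℝ) ≤ (u.1 : ℝ) - ⌊c.re * n⌋ := by exact_mod_cast a2
  have a3' : (u.2 : ℝ) - ⌊c.im * n⌋ ≤ 1 := by exact_mod_cast a3
  have a4' : (-1 : ℝ) ≤ (u.2 : ℝ) - ⌊c.im * n⌋ := by exact_mod_cast a4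
  have b1' : ((S.b n).1 : ℝ) - u.1 ≤ m := by exact_mod_cast b1
  have b2' : (-m : ℝ) ≤ (S.b n).1 - u.1 := by exact_mod_cast b2
  have b3' : ((S.b n).2 : ℝ) - u.2 ≤ m := by exact_mod_cast b3
  have b4' : (-m : ℝ) ≤ (S.b n).2 - u.2 := by exact_mod_cast b4
  rw [abs_le] at h1 h2 h3 h4
  have k1 : |S.bp.re * n - c.re * n| ≤ m + 3 := by
    rw [abs_le]
    constructor <;> linarith [h1.1, h1.2, h3.1, h3.2]
  have k2 : |S.bp.im * n - c.im * n| ≤ m + 3 := by
    rw [abs_le]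
    constructor <;> linarith [h2.1, h2.2, h4.1, h4.2]
  linarith

/-- **The side near a flat boundary point.** -/
theorem side_flat (S : Dat) {c ν : ℂ} {r : ℝ} (hF : Flat S.P c ν r) (hb : S.bp ∉ ball c r) :
    ∃ i : Fin 4, ν = nor i ∧ ∀ᶠ n : ℕ in atTop, ∀ v : ℤ × ℤ, v = fs n c ∨ v = fs n c + dir i →
      ∃ l : ℕ, 0 < l ∧ l < S.l * n ∧ qS S n l = v ∧
      ∀ R : ℤ, (R : ℝ) ≤ r * n / 4 → H135.FlR i (S.D n) v (R + 1) ∧ R < nm (S.b n - v) := by
  obtain ⟨i, hi, hd⟩ := flat_dom S hF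
  refine ⟨i, hi, ?_⟩
  have hlim : Tendsto (fun n : ℕ => r * (n : ℝ)) atTop atTop :=
    Tendsto.const_mul_atTop hF.pos tendsto_natCast_atTop_atTop
  filter_upwards [eventually_gt_atTop 0, hlim.eventually_ge_atTop 16] with n hn h16 v hv
  have hon : onl i (fs n c) v := by
    rcases hv with rfl | rfl
    · exact onl_self _ _
    · exact onl_dir _ _
  have hnear : nm (v - fs n c) ≤ 1 := by
    rcases hv with rfl | rfl
    · rw [sub_self]; decide
    · rw [add_sub_cancel_left]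
      rcases fin4_cases i with rfl | rfl | rfl | rfl <;> decide
  have hDw : ∀ R : ℤ, (R : ℝ) ≤ r * n / 4 → ∀ w, nm (w - v) ≤ R + 1 →
      (w ∈ S.D n ↔ hpl i (fs n c) w) := by
    intro R hR w hw
    rw [nm_le_iff] at hw hnear
    simp only [Prod.fst_sub, Prod.snd_sub] at hw hnear
    refine hd n hn (R + 2) w ?_ ?_ ?_
    · push_cast; linarith
    · rw [abs_le]; omega
    · rw [abs_le]; omega
  have hfar : ∀ R : ℤ, (R : ℝ) ≤ r * n / 4 → R < nm (S.b n - v) := by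
    intro R hR
    have h1 := far_bp S hb hnear
    have : (R : ℝ) < nm (S.b n - v) := by linarith
    exact_mod_cast this
  obtain ⟨g1, g2⟩ := hpl_face hon
  have hR0 : ((0 : ℤ) : ℝ) ≤ r * n / 4 := by push_cast; linarith
  have hfv : ∀ j : Fin 4, nm (face v j - v) ≤ 0 + 1 := by
    intro j
    unfold face
    rw [add_sub_cancel_left]
    rcases fin4_cases j with rfl | rfl | rfl | rfl <;> decide
  have m1 := (hDw 0 hR0 _ (hfv i)).2 g1
  have m2 := fun h => g2 ((hDw 0 hR0 _ (hfv (i - 1))).1 h)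
  have henc : Encloses (qS S n) (S.D n) := Enl.encloses_qN hn S.poly S.enc _
  obtain ⟨j, hj, -⟩ := (henc v i).2 ⟨m1, m2⟩
  have hN : NeZero (S.l * n) := ⟨by have := S.poly.1; positivity⟩
  refine ⟨j.val, ?_, ZMod.val_lt j, by rw [ZMod.natCast_zmod_val]; exact hj, fun R hR =>
    ⟨flR_of hon (hDw R hR), hfar R hR⟩⟩
  rw [Nat.pos_iff_ne_zero, ZMod.val_ne_zero]
  rintro rfl
  rw [qS_zero S hn] at hj
  have h1 := hfar 0 hR0
  rw [hj, sub_self] at h1
  exact absurd h1 (by decide)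

/-- One of two neighbours has the prescribed parity. -/
theorem pick_par (P : Prop) (z a : ℤ × ℤ) (i : Fin 4) : ∃ v, (v = z ∨ v = z + dir i) ∧
    (Even ((v + a).1 + (v + a).2) ↔ P) := by
  have key : Even ((z + dir i + a).1 + (z + dir i + a).2) ↔ ¬ Even ((z + a).1 + (z + a).2) := by
    rcases fin4_cases i with rfl | rfl | rfl | rfl
    · show Even (z.1 + 1 + a.1 + (z.2 + 0 + a.2)) ↔ ¬ Even (z.1 + a.1 + (z.2 + a.2))
      rw [Int.even_iff, Int.even_iff]; omega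
    · show Even (z.1 + 0 + a.1 + (z.2 + 1 + a.2)) ↔ ¬ Even (z.1 + a.1 + (z.2 + a.2))
      rw [Int.even_iff, Int.even_iff]; omega
    · show Even (z.1 + -1 + a.1 + (z.2 + 0 + a.2)) ↔ ¬ Even (z.1 + a.1 + (z.2 + a.2))
      rw [Int.even_iff, Int.even_iff]; omega
    · show Even (z.1 + 0 + a.1 + (z.2 + -1 + a.2)) ↔ ¬ Even (z.1 + a.1 + (z.2 + a.2))
      rw [Int.even_iff, Int.even_iff]; omega
  by_cases h : Even ((z + a).1 + (z + a).2) ↔ P
  · exact ⟨z, Or.inl rfl, h⟩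
  · exact ⟨z + dir i, Or.inr rfl, by rw [key]; tauto⟩

/-- **The windows at a flat boundary point**, for the polygon translated by `a₀`: an index `l` of
prescribed parity, and the window after every movement which makes the side horizontal. -/
theorem win_flat_add (S : Dat) {c ν : ℂ} {r : ℝ} (hF : Flat S.P c ν r) (hb : S.bp ∉ ball c r)
    (a₀ : ℤ × ℤ) : ∃ i : Fin 4, ν = nor i ∧ ∀ᶠ n : ℕ in atTop, ∀ P : Prop, ∃ l : ℕ,
      0 < l ∧ l < S.l * n ∧ (Even ((qS S n l + a₀).1 + (qS S n l + a₀).2) ↔ P) ∧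
      (qS S n l = fs n c ∨ qS S n l = fs n c + dir i) ∧
      |((qS S n l).1 : ℝ) - c.re * n| ≤ 2 ∧ |((qS S n l).2 : ℝ) - c.im * n| ≤ 2 ∧
      ∀ (a : ℤ × ℤ) (ha : Even (a.1 + a.2)) (R : ℤ), (R : ℝ) ≤ r * n / 4 →
        Win (Mq (mv (-i) a ha) fun j => qS S n j + a₀)
          ((mv (-i) a ha).S ((S.D n).image (· + a₀))) l R := by
  obtain ⟨i, hi, h⟩ := side_flat S hF hb
  refine ⟨i, hi, ?_⟩
  filter_upwards [h, eventually_gt_atTop 0] with n hn hn0 P
  obtain ⟨v, hv, hP⟩ := pick_par P (fs n c) a₀ i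
  obtain ⟨l, l0, l1, l2, hl⟩ := hn v hv
  have hnear : nm (v - fs n c) ≤ 1 := by
    rcases hv with rfl | rfl
    · rw [sub_self]; decide
    · rw [add_sub_cancel_left]
      rcases fin4_cases i with rfl | rfl | rfl | rfl <;> decide
  rw [nm_le_iff] at hnear
  simp only [Prod.fst_sub, Prod.snd_sub] at hnear
  obtain ⟨⟨c1, c2⟩, c3, c4⟩ := hnear
  unfold fs at c1 c2 c3 c4
  simp only at c1 c2 c3 c4
  have c1' : (v.1 : ℝ) - ⌊c.re * n⌋ ≤ 1 := by exact_mod_cast c1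
  have c2' : (-1 : ℝ) ≤ (v.1 : ℝ) - ⌊c.re * n⌋ := by exact_mod_cast c2
  have c3' : (v.2 : ℝ) - ⌊c.im * n⌋ ≤ 1 := by exact_mod_cast c3
  have c4' : (-1 : ℝ) ≤ (v.2 : ℝ) - ⌊c.im * n⌋ := by exact_mod_cast c4
  have d1 := abs_le.1 (fl_le (c.re * n))
  have d2 := abs_le.1 (fl_le (c.im * n))
  refine ⟨l, l0, l1, by rw [l2]; exact hP, by rw [l2]; exact hv, ?_, ?_, fun a ha R hR => ?_⟩
  · rw [l2, abs_le]; constructor <;> linarith [d1.1, d1.2]
  · rw [l2, abs_le]; constructor <;> linarith [d2.1, d2.2]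
  · obtain ⟨e1, e2⟩ := hl R hR
    refine win_of (H718.poly_add (Enl.isPolygon_qN hn0 S.poly _) a₀)
      (H718.encl_add (Enl.encloses_qN hn0 S.poly S.enc _) a₀) l1 ?_ ?_ a ha
    · show H135.FlR i _ (qS S n l + a₀) (R + 1)
      rw [l2]
      exact flR_add e1 a₀
    · show R < nm (qS S n 0 + a₀ - (qS S n l + a₀))
      rw [add_sub_add_right_eq_sub, qS_zero S hn0, l2]
      exact e2

/-- **The windows at a flat boundary point.** -/
theorem win_flat (S : Dat) {c ν : ℂ} {r : ℝ} (hF : Flat S.P c ν r) (hb : S.bp ∉ ball c r) :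
    ∃ i : Fin 4, ν = nor i ∧ ∀ᶠ n : ℕ in atTop, ∀ P : Prop, ∃ l : ℕ,
      0 < l ∧ l < S.l * n ∧ (Even ((qS S n l).1 + (qS S n l).2) ↔ P) ∧
      (qS S n l = fs n c ∨ qS S n l = fs n c + dir i) ∧
      |((qS S n l).1 : ℝ) - c.re * n| ≤ 2 ∧ |((qS S n l).2 : ℝ) - c.im * n| ≤ 2 ∧
      ∀ (a : ℤ × ℤ) (ha : Even (a.1 + a.2)) (R : ℤ), (R : ℝ) ≤ r * n / 4 →
        Win (Mq (mv (-i) a ha) (qS S n)) ((mv (-i) a ha).S (S.D n)) l R := by
  have h := win_flat_add S hF hb 0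
  simpa using h

/-! ### the form of `H411/Q` -/

open Vale.Agent.P167.H411.Q (ow Dw qw)
open Vale.Agent.P167.H562.QM (FltQ)
open scoped ComplexConjugate

/-- The rotation is the multiplication by `I * conj ν`. -/
theorem pt_rk (i : Fin 4) (z : ℤ × ℤ) :
    pt ((H135.rk (-i)).t z) = Complex.I * conj (nor i) * pt z := by
  rcases fin4_cases i with rfl | rfl | rfl | rfl
  · show pt ((H135.rk 0).t z) = _
    rw [H135.rk0_t]
    apply Complex.ext <;> simp [nor, pt]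
  · show pt ((H135.rk 3).t z) = _
    rw [H135.rk3_t]
    apply Complex.ext <;> simp [nor, pt]
  · show pt ((H135.rk 2).t z) = _
    rw [H135.rk2_t]
    apply Complex.ext <;> simp [nor, pt]
  · show pt ((H135.rk 1).t z) = _
    rw [H135.rk1_t]
    apply Complex.ext <;> simp [nor, pt]

theorem S_rk (j : Fin 4) (ha : Even ((0 : ℤ × ℤ).1 + (0 : ℤ × ℤ).2)) (D : Finset (ℤ × ℤ)) :
    (mv j 0 ha).S D = (H135.rk j).S D := by
  unfold Mov.S
  refine image_congr fun v _ => ?_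
  rw [H135.mv_s, add_zero]

theorem fltQ_of {i : Fin 4} {D : Finset (ℤ × ℤ)} {u : ℤ × ℤ} {R : ℤ} (h : H135.FlR i D u (R + 1)) :
    FltQ ((H135.rk (-i)).S D) eta0 ((H135.rk (-i)).t u) R false false where
  dom v hv := by
    have h0 : Even ((0 : ℤ × ℤ).1 + (0 : ℤ × ℤ).2) := by decide
    have h1 := h.fl 0 h0 v
    rw [S_rk, H135.mv_t, add_zero] at h1
    exact h1 hv
  out v _ _ := by
    show false = if v.1 < ((H135.rk (-i)).t u).1 then false else false
    split_ifs <;> rfl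

theorem S_tra (M : Mov) (a : ℤ × ℤ) (he : Even (a.1 + a.2)) (D : Finset (ℤ × ℤ)) :
    ((H135.tra a he).trans M).S D = M.S (D.image (· + a)) := by
  unfold Mov.S
  rw [image_image]
  rfl

theorem rk_zero (j : Fin 4) : (H135.rk j).t 0 = 0 := by
  have h := H135.rk_smul j 0 0
  simpa using h

theorem norm_le_three {z : ℂ} (h1 : |z.re| ≤ 2) (h2 : |z.im| ≤ 2) : ‖z‖ ≤ 3 := by
  rw [abs_le] at h1 h2
  have h3 : ‖z‖ ^ 2 ≤ 3 ^ 2 := by
    rw [← Complex.normSq_eq_norm_sq, Complex.normSq_apply]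
    nlinarith [h1.1, h1.2, h2.1, h2.2]
  exact (sq_le_sq₀ (norm_nonneg _) (by norm_num)).1 h3

/-- **The windows of both families at a flat point.** -/
theorem win_c (S : Dat) {c ν : ℂ} {r : ℝ} (hF : Flat S.P c ν r) (hb : S.bp ∉ ball c r) :
    ∃ j : Fin 4, (∀ z : ℤ × ℤ, pt ((H135.rk j).t z) = Complex.I * conj ν * pt z) ∧
    ∀ w : Bool, ∀ᶠ n : ℕ in atTop, ∃ (l : ℕ)
      (he : Even ((-(qw S w n l)).1 + (-(qw S w n l)).2)), 0 < l ∧ l < S.l * n ∧
      ‖pt (qw S w n l) - pt (ow w) - n * c‖ ≤ 3 ∧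
      ∀ R : ℤ, 1 ≤ R → 4 * (R : ℝ) ≤ r * n →
        FltQ (((H135.tra _ he).trans (H135.rk j)).S (Dw S w n)) eta0 (0, 0) R false false := by
  obtain ⟨i, rfl, h⟩ := side_flat S hF hb
  refine ⟨-i, pt_rk i, fun w => ?_⟩
  filter_upwards [h] with n hn
  obtain ⟨v, hv, hP⟩ := pick_par True (fs n c) (ow w) i
  obtain ⟨l, l0, l1, l2, hl⟩ := hn v hv
  have hnear : nm (v - fs n c) ≤ 1 := by
    rcases hv with rfl | rfl
    · rw [sub_self]; decide
    · rw [add_sub_cancel_left]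
      rcases fin4_cases i with rfl | rfl | rfl | rfl <;> decide
  rw [nm_le_iff] at hnear
  simp only [Prod.fst_sub, Prod.snd_sub] at hnear
  obtain ⟨⟨c1, c2⟩, c3, c4⟩ := hnear
  unfold fs at c1 c2 c3 c4
  simp only at c1 c2 c3 c4
  have c1' : (v.1 : ℝ) - ⌊c.re * n⌋ ≤ 1 := by exact_mod_cast c1
  have c2' : (-1 : ℝ) ≤ (v.1 : ℝ) - ⌊c.re * n⌋ := by exact_mod_cast c2
  have c3' : (v.2 : ℝ) - ⌊c.im * n⌋ ≤ 1 := by exact_mod_cast c3
  have c4' : (-1 : ℝ) ≤ (v.2 : ℝ) - ⌊c.im * n⌋ := by exact_mod_cast c4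
  have d1 := abs_le.1 (fl_le (c.re * n))
  have d2 := abs_le.1 (fl_le (c.im * n))
  have el : qw S w n l = v + ow w := by
    show qS S n l + ow w = _
    rw [l2]
  have hev : Even ((v + ow w).1 + (v + ow w).2) := hP.2 trivial
  have he : Even ((-(qw S w n l)).1 + (-(qw S w n l)).2) := by
    rw [el]
    show Even (-(v + ow w).1 + -(v + ow w).2)
    rw [← neg_add]
    exact hev.neg
  refine ⟨l, he, l0, l1, ?_, fun R hR1 hR => ?_⟩
  · have e1 : pt (qw S w n l) - pt (ow w) - n * c = pt v - n * c := by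
      rw [el]
      apply Complex.ext
      · simp [pt]
      · simp [pt]
    rw [e1]
    refine norm_le_three ?_ ?_
    · have : (pt v - n * c).re = (v.1 : ℝ) - c.re * n := by simp [pt]; ring
      rw [this, abs_le]
      constructor <;> linarith [d1.1, d1.2]
    · have : (pt v - n * c).im = (v.2 : ℝ) - c.im * n := by simp [pt]; ring
      rw [this, abs_le]
      constructor <;> linarith [d2.1, d2.2]
  · obtain ⟨e1, e2⟩ := hl R (by linarith)
    have e3 := flR_add (flR_add e1 (ow w)) (-(v + ow w))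
    rw [add_neg_cancel] at e3
    have e4 := fltQ_of e3
    rw [rk_zero] at e4
    have e5 : ((H135.tra _ he).trans (H135.rk (-i))).S (Dw S w n) =
        (H135.rk (-i)).S (((S.D n).image (· + ow w)).image (· + -(v + ow w))) := by
      rw [S_tra]
      unfold Dw
      rw [el]
    rw [e5]
    exact e4

theorem onl_of_face {i r : Fin 4} {z v : ℤ × ℤ} (h1 : hpl i z (face v r))
    (h2 : ¬ hpl i z (face v (r - 1))) : onl i z v := by
  obtain ⟨x, y⟩ := v
  obtain ⟨s, t⟩ := z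
  rcases fin4_cases i with rfl | rfl | rfl | rfl <;> rcases fin4_cases r with rfl | rfl | rfl | rfl
  · have h1' : t ≤ y + 0 := h1
    have h2' : ¬ t ≤ y + -1 := h2
    show y = t
    omega
  · have h1' : t ≤ y + 0 := h1
    have h2' : ¬ t ≤ y + 0 := h2
    omega
  · have h1' : t ≤ y + -1 := h1
    have h2' : ¬ t ≤ y + 0 := h2
    omega
  · have h1' : t ≤ y + -1 := h1
    have h2' : ¬ t ≤ y + -1 := h2
    omega
  · have h1' : x + 0 < s := h1
    have h2' : ¬ x + 0 < s := h2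
    omega
  · have h1' : x + -1 < s := h1
    have h2' : ¬ x + 0 < s := h2
    show x = s
    omega
  · have h1' : x + -1 < s := h1
    have h2' : ¬ x + -1 < s := h2
    omega
  · have h1' : x + 0 < s := h1
    have h2' : ¬ x + -1 < s := h2
    omega
  · have h1' : y + 0 < t := h1
    have h2' : ¬ y + -1 < t := h2
    omega
  · have h1' : y + 0 < t := h1
    have h2' : ¬ y + 0 < t := h2
    omega
  · have h1' : y + -1 < t := h1
    have h2' : ¬ y + 0 < t := h2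
    show y = t
    omega
  · have h1' : y + -1 < t := h1
    have h2' : ¬ y + -1 < t := h2
    omega
  · have h1' : s ≤ x + 0 := h1
    have h2' : ¬ s ≤ x + 0 := h2
    omega
  · have h1' : s ≤ x + -1 := h1
    have h2' : ¬ s ≤ x + 0 := h2
    omega
  · have h1' : s ≤ x + -1 := h1
    have h2' : ¬ s ≤ x + -1 := h2
    omega
  · have h1' : s ≤ x + 0 := h1
    have h2' : ¬ s ≤ x + -1 := h2
    show x = s
    omega

/-- **The windows of both families at the base point.** -/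
theorem win_p (S : Dat) {ν : ℂ} {r : ℝ} (hF : Flat S.P S.bp ν r) :
    ∃ j : Fin 4, (∀ z : ℤ × ℤ, pt ((H135.rk j).t z) = Complex.I * conj ν * pt z) ∧
    ∀ w : Bool, ∀ᶠ n : ℕ in atTop, ∀ R : ℤ, 1 ≤ R → 4 * (R : ℝ) ≤ r * n →
      FltQ ((H135.rk j).S (Dw S w n)) eta0 ((H135.rk j).t (qw S w n 0)) R false false := by
  obtain ⟨i, rfl, hd⟩ := flat_dom S hF
  refine ⟨-i, pt_rk i, fun w => ?_⟩
  have hlim : Tendsto (fun n : ℕ => r * (n : ℝ)) atTop atTop :=
    Tendsto.const_mul_atTop hF.pos tendsto_natCast_atTop_atTop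
  filter_upwards [eventually_gt_atTop 0, hlim.eventually_ge_atTop 20] with n hn h20 R hR1 hR
  -- the base site is near `fs n bp`
  obtain ⟨n1, n2⟩ := near_bp S n
  rw [abs_le] at n1 n2
  have d1 := abs_le.1 (fl_le (S.bp.re * n))
  have d2 := abs_le.1 (fl_le (S.bp.im * n))
  have k1 : |(S.b n).1 - (fs n S.bp).1| ≤ 2 := by
    have : |((S.b n).1 : ℝ) - (⌊S.bp.re * n⌋ : ℝ)| ≤ 2 := by
      rw [abs_le]; constructor <;> linarith [d1.1, d1.2, n1.1, n1.2]
    exact_mod_cast this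
  have k2 : |(S.b n).2 - (fs n S.bp).2| ≤ 2 := by
    have : |((S.b n).2 : ℝ) - (⌊S.bp.im * n⌋ : ℝ)| ≤ 2 := by
      rw [abs_le]; constructor <;> linarith [d2.1, d2.2, n2.1, n2.2]
    exact_mod_cast this
  rw [abs_le] at k1 k2
  have hDw : ∀ R : ℤ, 4 * (R : ℝ) ≤ r * n → ∀ v, nm (v - S.b n) ≤ R + 1 →
      (v ∈ S.D n ↔ hpl i (fs n S.bp) v) := by
    intro R hR v hv
    rw [nm_le_iff] at hv
    simp only [Prod.fst_sub, Prod.snd_sub] at hv
    refine hd n hn (R + 3) v ?_ ?_ ?_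
    · push_cast; linarith
    · rw [abs_le]; omega
    · rw [abs_le]; omega
  have hfv : ∀ j : Fin 4, nm (face (S.b n) j - S.b n) ≤ 0 + 1 := by
    intro j
    unfold face
    rw [add_sub_cancel_left]
    rcases fin4_cases j with rfl | rfl | rfl | rfl <;> decide
  have hR0 : 4 * ((0 : ℤ) : ℝ) ≤ r * n := by push_cast; linarith
  have hq : IsPolygon (qS S n) := Enl.isPolygon_qN hn S.poly _
  have henc : Encloses (qS S n) (S.D n) := Enl.encloses_qN hn S.poly S.enc _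
  obtain ⟨s, hs⟩ := hq.2.2 0
  obtain ⟨m1, m2⟩ := (henc (qS S n 0) s).1 ⟨0, rfl, hs⟩
  rw [qS_zero S hn] at m1 m2
  have hon : onl i (fs n S.bp) (S.b n) :=
    onl_of_face ((hDw 0 hR0 _ (hfv s)).1 m1) fun h => m2 ((hDw 0 hR0 _ (hfv (s - 1))).2 h)
  have e0 : qw S w n 0 = S.b n + ow w := by
    show qS S n 0 + ow w = _
    rw [qS_zero S hn]
  rw [e0]
  exact fltQ_of (flR_add (flR_of hon (hDw R hR)) (ow w))

end Vale.Agent.P167.H980.ND
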