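import Vale.Agent.P167.H980.ND.Lsym

/-!
# P167, general `q`, block ND-CONT: the functional of a Dobrushin polygon under the symmetries

`XB_im`: the functional of the image polygon. `Ex_im`: expectations; the free polygon and the wired polygon
are exchanged by the symmetries with exchange of the colours. `wired_free`: odd translation.
-/

namespace Vale.Agent.P167.H980.ND

open Finset Vale.Agent.P167 Vale.Agent.P167.BR
open Vale.Agent.P167.FK (mem_im im_im_symm Ex cf Zq LD Good eta0)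
open Vale.Agent.P167.H135 (fx)
open Vale.Agent.P167.E6 (dir face IsPolygon Encloses)
open Vale.Agent.P167.E2 (ro ro_spec)
open Vale.Agent.P167.QX (lo hi wB XB exists_xy)
open Vale.Agent.P167.H718 (IsXY IsCl Cl Dob dirInj)

variable {b : Bool} {φ : Ed ≃ Ed} {σ τ : (ℤ × ℤ) ≃ (ℤ × ℤ)} {c : Fin 4} {ω η η' : Cfg} {n k k' : ℕ}
  {q : ZMod n → ℤ × ℤ} {D : Finset (ℤ × ℤ)} {A : Finset Ed}

section

variable (h : Lsym b φ σ τ c)
include h

theorem poly_im (hq : IsPolygon q) : IsPolygon fun i => τ (q i) := by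
  refine ⟨hq.1, fun i j hh => hq.2.1 (τ.injective hh), fun i => ?_⟩
  obtain ⟨r, hr⟩ := hq.2.2 i
  refine ⟨r + c, ?_⟩
  show τ (q (i + 1)) = τ (q i) + dir (r + c)
  rw [hr, h.dir]

theorem encl_im (hD : Encloses q D) : Encloses (fun i => τ (q i)) (D.image σ) := by
  intro v r
  have h1 := hD (τ.symm v) (r - c)
  have e1 : ∀ s : Fin 4, face v s ∈ D.image σ ↔ face (τ.symm v) (s - c) ∈ D := by
    intro s
    have h2 := h.face (τ.symm v) (s - c)
    rw [Equiv.apply_symm_apply, sub_add_cancel] at h2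
    rw [← h2, mem_im, Equiv.symm_apply_apply]
  rw [e1, e1, show r - 1 - c = r - c - 1 from sub_right_comm r 1 c, ← h1]
  refine exists_congr fun i => and_congr ?_ ?_
  · rw [Equiv.eq_symm_apply]
  · have h3 := h.dir (τ.symm v) (r - c)
    rw [Equiv.apply_symm_apply, sub_add_cancel] at h3
    constructor
    · intro hh
      apply τ.injective
      rw [h3]
      exact hh
    · intro hh
      show τ (q (i + 1)) = _
      rw [hh, h3]

theorem ro_im (hq : IsPolygon q) (i : ZMod n) : ro (fun i => τ (q i)) i = ro q i + c := by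
  have h1 : τ (q (i + 1)) = τ (q i) + dir (ro (fun i => τ (q i)) i) := ro_spec (poly_im h hq) i
  rw [ro_spec hq i, h.dir] at h1
  exact (dirInj (add_left_cancel h1)).symm

theorem be_im (hq : IsPolygon q) (i : ZMod n) : be (fun i => τ (q i)) i = φ (be q i) := by
  unfold be
  rw [ro_im h hq, h.ce]

theorem sides_im (hq : IsPolygon q) : {k | k < n ∧ be (fun i => τ (q i)) (k : ZMod n) ∈ A.image φ} =
    {k | k < n ∧ be q (k : ZMod n) ∈ A} := by
  ext k
  simp only [Set.mem_ofPred_eq, be_im h hq, mem_im, Equiv.symm_apply_apply]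

theorem lo_im (hq : IsPolygon q) : lo (fun i => τ (q i)) (A.image φ) = lo q A := by
  unfold lo
  rw [sides_im h hq]

theorem hi_im (hq : IsPolygon q) : hi (fun i => τ (q i)) (A.image φ) = hi q A := by
  unfold hi
  rw [sides_im h hq]

end

theorem hi_lt (hn : 0 < n) : hi q A < n := by
  unfold hi
  rcases ({k | k < n ∧ be q (k : ZMod n) ∈ A} : Set ℕ).eq_empty_or_nonempty with h1 | h1
  · rw [h1, csSup_empty]
    exact hn
  · have hb : BddAbove ({k | k < n ∧ be q (k : ZMod n) ∈ A} : Set ℕ) := ⟨n, fun k hk => hk.1.le⟩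
    exact (Nat.sSup_mem h1 hb).1

theorem xy_false (h : Lsym false φ σ τ c) (hq : IsPolygon q) {x y : ℕ} :
    IsXY (fun i => τ (q i)) (A.image φ) x y ↔ IsXY q A x y := by
  unfold IsXY
  rw [be_im h hq, be_im h hq, mem_im, mem_im, Equiv.symm_apply_apply, Equiv.symm_apply_apply,
    h.even, h.even]

theorem xy_true (h : Lsym true φ σ τ c) (hq : IsPolygon q) {x y : ℕ} :
    IsXY (fun i => τ (q i)) (A.image φ) x y ↔ IsXY q A y x := by
  unfold IsXY
  rw [be_im h hq, be_im h hq, mem_im, mem_im, Equiv.symm_apply_apply, Equiv.symm_apply_apply,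
    h.odd, h.odd, not_not]
  tauto

/-- The boundary conditions of the image. -/
def Adm (b : Bool) (n k k' : ℕ) : Prop :=
  (b = false ∧ k' = k ∧ k ≤ n) ∨ (b = true ∧ ((k = 0 ∧ k' = n) ∨ (k = n ∧ k' = 0)))

theorem Adm.le (h : Adm b n k k') : k ≤ n := by
  rcases h with ⟨-, -, h⟩ | ⟨-, ⟨rfl, -⟩ | ⟨rfl, -⟩⟩ <;> omega

theorem Adm.le' (h : Adm b n k k') : k' ≤ n := by
  rcases h with ⟨-, rfl, h⟩ | ⟨-, ⟨-, rfl⟩ | ⟨-, rfl⟩⟩ <;> omega

section

variable (h : Lsym b φ σ τ c) (hk : Adm b n k k')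
include h hk

theorem isCl_im (hq : IsPolygon q) (hA : A ∈ pcs ω D) :
    IsCl (D.image σ) (fun i => τ (q i)) k' (A.image φ) ↔ IsCl D q k A := by
  unfold IsCl
  refine or_congr (isLp_im h hA) ?_
  rcases hk with ⟨rfl, rfl, -⟩ | ⟨rfl, hk⟩
  · exact exists_congr fun x => exists_congr fun y => and_congr_left fun _ => xy_false h hq
  · rw [exists_comm]
    refine exists_congr fun x => exists_congr fun y => ?_
    rw [xy_true h hq]
    refine and_congr_right fun hxy => ?_
    have h1 := hxy.1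
    have h2 := hxy.2.1
    unfold Cl
    rcases hk with ⟨rfl, rfl⟩ | ⟨rfl, rfl⟩ <;> omega

theorem mid_im (hq : IsPolygon q) : (lo (fun i => τ (q i)) (A.image φ) < k' ∧
    k' ≤ hi (fun i => τ (q i)) (A.image φ)) ↔ (lo q A < k ∧ k ≤ hi q A) := by
  rw [lo_im h hq, hi_im h hq]
  have hn : 0 < n := by have := hq.1; omega
  have h1 := hi_lt (q := q) (A := A) hn
  rcases hk with ⟨-, rfl, -⟩ | ⟨-, ⟨rfl, rfl⟩ | ⟨rfl, rfl⟩⟩
  · exact Iff.rfl
  · omega
  · omega

theorem wB_im (hq : IsPolygon q) (hA : A ∈ pcs ω D) (θ β t : ℝ) :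
    wB θ β (fun i => τ (q i)) (D.image σ) k' (A.image φ) t = wB θ β q D k A t := by
  classical
  unfold wB
  simp only [isLp_im h hA, mid_im h hk hq, isCl_im h hk hq hA]

/-- **The functional of the image polygon.** -/
theorem XB_im (hq : IsPolygon q) (θ β : ℝ) (f : ℤ × ℤ → ℝ) (ω : Cfg) :
    XB θ β (fun i => τ (q i)) (D.image σ) k' (fun z => f (τ.symm z)) (cT b σ ω) =
      XB θ β q D k f ω := by
  unfold QX.XB
  rw [pcs_im h, prod_image fun x _ y _ hh => image_injective φ.injective hh]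
  refine prod_congr rfl fun A hA => ?_
  rw [mass_im h (q 0) f, wB_im h hk hq hA]

open Classical in
theorem prod_im (hq : IsPolygon q) (Q : ℝ) (ω : Cfg) :
    (∏ A ∈ pcs (cT b σ ω) (D.image σ), if IsCl (D.image σ) (fun i => τ (q i)) k' A then Q else 1) =
      ∏ A ∈ pcs ω D, if IsCl D q k A then Q else 1 := by
  rw [pcs_im h, prod_image fun x _ y _ hh => image_injective φ.injective hh]
  refine prod_congr rfl fun A hA => ?_
  simp only [isCl_im h hk hq hA]

omit h hk in
/-- The image of a set of open squares. -/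
def gS (b : Bool) (σ : (ℤ × ℤ) ≃ (ℤ × ℤ)) (D S : Finset (ℤ × ℤ)) : Finset (ℤ × ℤ) :=
  if b then (D \ S).image σ else S.image σ

omit h hk in
theorem gS_mem {S : Finset (ℤ × ℤ)} (hS : S ∈ D.powerset) : gS b σ D S ∈ (D.image σ).powerset := by
  rw [mem_powerset] at hS ⊢
  unfold gS
  split_ifs
  · exact image_subset_image sdiff_subset
  · exact image_subset_image hS

omit h hk in
theorem gS_inv {S : Finset (ℤ × ℤ)} (hS : S ∈ D.powerset) :
    gS b σ.symm (D.image σ) (gS b σ D S) = S := by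
  rw [mem_powerset] at hS
  have e1 : ∀ T : Finset (ℤ × ℤ), (T.image σ).image σ.symm = T := fun T => by
    have := im_im_symm σ.symm T
    rwa [Equiv.symm_symm] at this
  unfold gS
  split_ifs
  · rw [← image_sdiff _ _ σ.injective, e1, Finset.sdiff_sdiff_eq_self hS]
  · exact e1 S

omit h hk in
theorem gS_cf (η : Cfg) {S : Finset (ℤ × ℤ)} (η' : Cfg) {v : ℤ × ℤ} (hv : v ∈ D.image σ) :
    cf (D.image σ) η' (gS b σ D S) v = cT b σ (cf D η S) v := by
  have hv' : σ.symm v ∈ D := (mem_im σ D v).1 hv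
  unfold cT cf
  rw [if_pos hv, if_pos hv']
  unfold gS
  cases b
  · simp only [Bool.false_eq_true, if_false, mem_im, fx]
  · simp only [if_true, mem_im, mem_sdiff, hv', true_and, fx]
    by_cases hS : σ.symm v ∈ S <;> simp [hS]

/-- **Expectations in the image polygon.** -/
theorem Ex_im (hq : IsPolygon q) (hD : Encloses q D) (hη : Dob η D q k)
    (hη' : Dob η' (D.image σ) (fun i => τ (q i)) k') {Q : ℝ} (hQ : 0 < Q) {F F' : Cfg → ℝ}
    (hF : ∀ ω ω' : Cfg, (∀ v ∈ D.image σ, ω' v = cT b σ ω v) → F' ω' = F ω) :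
    Ex Q (D.image σ) η' F' = Ex Q D η F := by
  classical
  have hq' := poly_im h hq
  have hD' := encl_im h hD
  rw [H718.Ex_eq hq hD hk.le hη hQ, H718.Ex_eq hq' hD' hk.le' hη' hQ]
  have key : ∀ G G' : Cfg → ℝ, (∀ ω ω' : Cfg, (∀ v ∈ D.image σ, ω' v = cT b σ ω v) →
      G' ω' = G ω) → ∑ S ∈ (D.image σ).powerset, (∏ A ∈ pcs (cf (D.image σ) η' S) (D.image σ),
        if IsCl (D.image σ) (fun i => τ (q i)) k' A then Q else 1) * G' (cf (D.image σ) η' S) =
      ∑ S ∈ D.powerset, (∏ A ∈ pcs (cf D η S) D, if IsCl D q k A then Q else 1) *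
        G (cf D η S) := by
    intro G G' hG
    symm
    refine sum_nbij' (gS b σ D) (gS b σ.symm (D.image σ)) (fun S hS => gS_mem hS) (fun S hS => ?_)
      (fun S hS => gS_inv hS) (fun S hS => ?_) (fun S hS => ?_)
    · have h1 := gS_mem (b := b) (σ := σ.symm) hS
      rwa [show (D.image σ).image σ.symm = D from by
        have := im_im_symm σ.symm D
        rwa [Equiv.symm_symm] at this] at h1
    · have h1 := gS_inv (b := b) (σ := σ.symm) hS
      rwa [show (D.image σ).image σ.symm = D from by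
        have := im_im_symm σ.symm D
        rwa [Equiv.symm_symm] at this, Equiv.symm_symm] at h1
    · rw [hG _ _ fun v hv => gS_cf η η' hv, pcs_congr fun v hv => gS_cf η η' hv,
        prod_im h hk hq]
  have h2 := key (fun _ => 1) (fun _ => 1) (fun _ _ _ => rfl)
  simp only [mul_one] at h2
  rw [key F F' hF, h2]

/-- **The value of the functional in the image polygon.** -/
theorem Ex_XB_im (hq : IsPolygon q) (hD : Encloses q D) (hη : Dob η D q k)
    (hη' : Dob η' (D.image σ) (fun i => τ (q i)) k') {Q : ℝ} (hQ : 0 < Q) (θ β : ℝ)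
    (f : ℤ × ℤ → ℝ) :
    Ex Q (D.image σ) η' (XB θ β (fun i => τ (q i)) (D.image σ) k' fun z => f (τ.symm z)) =
      Ex Q D η (XB θ β q D k f) := by
  refine Ex_im h hk hq hD hη hη' hQ fun ω ω' hh => ?_
  rw [← XB_im h hk hq θ β f ω]
  unfold QX.XB
  rw [pcs_congr hh]

end

end Vale.Agent.P167.H980.ND
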