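import Vale.Agent.P167.BR.Sym
import Vale.Agent.P167.BR.Poly
import Vale.Agent.P167.FK.Sym
import Vale.Agent.P167.QB.Defs

/-!
# P167, general `q`, block ND-CONT: symmetries of the lattice

`Lsym b φ σ τ c`: a rotation of the lattice (squares `σ`, sites `τ`, medial edges `φ`, directions `r ↦ r + c`);
with exchange of the colours and reversal of the interfaces if `b` (if the parity of the sites is
exchanged). Pieces, potentials, masses are transported.
-/

namespace Vale.Agent.P167.H980.ND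

open Finset Vale.Agent.P167 Vale.Agent.P167.BR
open Vale.Agent.P167.FK (mem_im im_im_symm SyP SyR Sy)
open Vale.Agent.P167.H135 (fx)
open Vale.Agent.P167.E6 (dir face IsPolygon Encloses)

/-- The image of a configuration. -/
def cT (b : Bool) (σ : (ℤ × ℤ) ≃ (ℤ × ℤ)) (ω : Cfg) : Cfg := fun v => fx b (ω (σ.symm v))

/-- A symmetry of the lattice. -/
structure Lsym (b : Bool) (φ : Ed ≃ Ed) (σ τ : (ℤ × ℤ) ≃ (ℤ × ℤ)) (c : Fin 4) : Prop where
  dir : ∀ (v : ℤ × ℤ) (r : Fin 4), τ (v + dir r) = τ v + dir (r + c)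
  face : ∀ (v : ℤ × ℤ) (r : Fin 4), σ (face v r) = face (τ v) (r + c)
  ce : ∀ (v : ℤ × ℤ) (r : Fin 4), φ (ce v r) = ce (τ v) (r + c)
  par : ∀ v : ℤ × ℤ, Even ((τ v).1 + (τ v).2) ↔ (Even (v.1 + v.2) ↔ b = false)
  nxf : b = false → ∀ (ω : Cfg) (e : Ed), nx (cT b σ ω) (φ e) = φ (nx ω e)
  nxt : b = true → ∀ (ω : Cfg) (e : Ed), nx (cT b σ ω) (φ (nx ω e)) = φ e

variable {b b' : Bool} {φ φ' : Ed ≃ Ed} {σ τ σ' τ' : (ℤ × ℤ) ≃ (ℤ × ℤ)} {c c' : Fin 4} {ω : Cfg}
  {D Z : Finset (ℤ × ℤ)} {A : Finset Ed} {e e' : Ed}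

theorem fx_fx (b x : Bool) : fx b (fx b x) = x := by cases b <;> cases x <;> rfl

theorem fx_xor (b c x : Bool) : fx (xor b c) x = fx c (fx b x) := by
  cases b <;> cases c <;> cases x <;> rfl

theorem cT_symm (b : Bool) (σ : (ℤ × ℤ) ≃ (ℤ × ℤ)) (ω : Cfg) : cT b σ (cT b σ.symm ω) = ω := by
  funext v
  show fx b (fx b (ω (σ.symm.symm (σ.symm v)))) = ω v
  rw [fx_fx, Equiv.symm_symm, Equiv.apply_symm_apply]

theorem cT_symm' (b : Bool) (σ : (ℤ × ℤ) ≃ (ℤ × ℤ)) (ω : Cfg) : cT b σ.symm (cT b σ ω) = ω := by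
  have h := cT_symm b σ.symm ω
  rwa [Equiv.symm_symm] at h

theorem cT_apply (b : Bool) (σ : (ℤ × ℤ) ≃ (ℤ × ℤ)) (ω : Cfg) (v : ℤ × ℤ) :
    cT b σ ω (σ v) = fx b (ω v) := by
  show fx b (ω (σ.symm (σ v))) = _
  rw [Equiv.symm_apply_apply]

theorem nx_injective (ω : Cfg) : Function.Injective (nx ω) := fun a b h => by
  rw [← pv_nx ω a, h, pv_nx]

namespace Lsym

theorem even (h : Lsym false φ σ τ c) (v : ℤ × ℤ) :
    Even ((τ v).1 + (τ v).2) ↔ Even (v.1 + v.2) := by
  have := h.par v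
  tauto

theorem odd (h : Lsym true φ σ τ c) (v : ℤ × ℤ) :
    Even ((τ v).1 + (τ v).2) ↔ ¬ Even (v.1 + v.2) := by
  have := h.par v
  simp only [Bool.true_eq_false, iff_false] at this
  exact this

theorem sqF (h : Lsym false φ σ τ c) (e : Ed) : hdv (φ e) = σ (hdv e) ∧ tlv (φ e) = σ (tlv e) ∧
    ls (φ e) = τ (ls e) ∧ rs (φ e) = τ (rs e) := by
  obtain ⟨r, hr⟩ := exists_ce_ls e
  have hev := even_ls e
  generalize ls e = v at hr hev ⊢
  subst hr
  obtain ⟨h1, h2, h3, h4⟩ := ce_even hev r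
  obtain ⟨k1, k2, k3, k4⟩ := ce_even ((h.even v).2 hev) (r + c)
  rw [h.ce, k3, k4, k1, k2, h3, h4, h2, h.face, h.face, h.dir]
  refine ⟨rfl, ?_, rfl, rfl⟩
  congr 1
  abel

theorem sqT (h : Lsym true φ σ τ c) (e : Ed) : hdv (φ e) = σ (tlv e) ∧ tlv (φ e) = σ (hdv e) ∧
    ls (φ e) = τ (rs e) ∧ rs (φ e) = τ (ls e) := by
  obtain ⟨r, hr⟩ := exists_ce_ls e
  have hev := even_ls e
  generalize ls e = v at hr hev ⊢
  subst hr
  obtain ⟨h1, h2, h3, h4⟩ := ce_even hev r
  have hodd : ¬ Even ((τ v).1 + (τ v).2) := fun hh => (h.odd v).1 hh hev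
  obtain ⟨k1, k2, k3, k4⟩ := ce_odd hodd (r + c)
  rw [h.ce, k1, k2, k3, k4, h3, h4, h2, h.face, h.face, h.dir]
  refine ⟨?_, rfl, rfl, rfl⟩
  congr 1
  abel

theorem symm (h : Lsym b φ σ τ c) : Lsym b φ.symm σ.symm τ.symm (-c) where
  dir v r := by
    apply τ.injective
    rw [h.dir, Equiv.apply_symm_apply, Equiv.apply_symm_apply, neg_add_cancel_right]
  face v r := by
    apply σ.injective
    rw [h.face, Equiv.apply_symm_apply, Equiv.apply_symm_apply, neg_add_cancel_right]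
  ce v r := by
    apply φ.injective
    rw [h.ce, Equiv.apply_symm_apply, Equiv.apply_symm_apply, neg_add_cancel_right]
  par v := by
    have := h.par (τ.symm v)
    rw [Equiv.apply_symm_apply] at this
    tauto
  nxf hb ω e := by
    have h1 := h.nxf hb (cT b σ.symm ω) (φ.symm e)
    rw [cT_symm, Equiv.apply_symm_apply] at h1
    rw [h1, Equiv.symm_apply_apply]
  nxt hb ω e := by
    have h1 := h.nxt hb (cT b σ.symm ω) (φ.symm (nx ω e))
    rw [cT_symm, Equiv.apply_symm_apply] at h1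
    exact φ.injective (by rw [nx_injective ω h1, Equiv.apply_symm_apply])

theorem trans (h : Lsym b φ σ τ c) (h' : Lsym b' φ' σ' τ' c') :
    Lsym (xor b b') (φ.trans φ') (σ.trans σ') (τ.trans τ') (c + c') := by
  have hc : ∀ ω, cT (xor b b') (σ.trans σ') ω = cT b' σ' (cT b σ ω) := by
    intro ω
    funext v
    exact fx_xor _ _ _
  refine ⟨fun v r => ?_, fun v r => ?_, fun v r => ?_, fun v => ?_, fun hb ω e => ?_,
    fun hb ω e => ?_⟩
  · show τ' (τ (v + E6.dir r)) = τ' (τ v) + _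
    rw [h.dir, h'.dir, add_assoc]
  · show σ' (σ (E6.face v r)) = E6.face (τ' (τ v)) _
    rw [h.face, h'.face, add_assoc]
  · show φ' (φ (BR.ce v r)) = BR.ce (τ' (τ v)) _
    rw [h.ce, h'.ce, add_assoc]
  · have h1 := h.par v
    have h2 := h'.par (τ v)
    show Even ((τ' (τ v)).1 + (τ' (τ v)).2) ↔ _
    rw [h2, h1]
    cases b <;> cases b' <;> simp
  · rw [hc]
    show nx (cT b' σ' (cT b σ ω)) (φ' (φ e)) = φ' (φ (nx ω e))
    cases b <;> cases b'
    · rw [h'.nxf rfl, h.nxf rfl]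
    · exact absurd hb (by decide)
    · exact absurd hb (by decide)
    · rw [← h.nxt rfl ω e, h'.nxt rfl]
  · rw [hc]
    show nx (cT b' σ' (cT b σ ω)) (φ' (φ (nx ω e))) = φ' (φ e)
    cases b <;> cases b'
    · exact absurd hb (by decide)
    · rw [← h.nxf rfl, h'.nxt rfl]
    · rw [h'.nxf rfl, h.nxt rfl]
    · exact absurd hb (by decide)

end Lsym

/-! ### Pieces -/

section

variable (h : Lsym b φ σ τ c)
include h

theorem eds_im : φ e ∈ eds (D.image σ) ↔ e ∈ eds D := by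
  rw [mem_eds, mem_eds]
  cases b
  · rw [(h.sqF e).1, (h.sqF e).2.1, mem_im, mem_im, Equiv.symm_apply_apply, Equiv.symm_apply_apply]
  · rw [(h.sqT e).1, (h.sqT e).2.1, mem_im, mem_im, Equiv.symm_apply_apply, Equiv.symm_apply_apply]
    exact or_comm

theorem eds_tr' : eds (D.image σ) = (eds D).image φ := by
  ext e
  rw [mem_im, ← eds_im h (e := φ.symm e), Equiv.apply_symm_apply]

theorem eqv_im (hh : Relation.EqvGen (Nxt ω D) e e') :
    Relation.EqvGen (Nxt (cT b σ ω) (D.image σ)) (φ e) (φ e') := by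
  induction hh with
  | rel x y hxy =>
    obtain ⟨h1, rfl⟩ := hxy
    cases b
    · refine Relation.EqvGen.rel _ _ ⟨?_, (h.nxf rfl ω x).symm⟩
      rw [(h.sqF x).1, mem_im, Equiv.symm_apply_apply]
      exact h1
    · refine Relation.EqvGen.symm _ _ (Relation.EqvGen.rel _ _ ⟨?_, (h.nxt rfl ω x).symm⟩)
      rw [(h.sqT _).1, mem_im, Equiv.symm_apply_apply, tlv_nx]
      exact h1
  | refl x => exact Relation.EqvGen.refl _
  | symm x y _ ih => exact ih.symm
  | trans x y z _ _ ih1 ih2 => exact ih1.trans _ _ _ ih2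

theorem eqv_im_iff : Relation.EqvGen (Nxt (cT b σ ω) (D.image σ)) (φ e) (φ e') ↔
    Relation.EqvGen (Nxt ω D) e e' := by
  refine ⟨fun hh => ?_, eqv_im h⟩
  have h1 := eqv_im h.symm hh
  rwa [cT_symm', Equiv.symm_apply_apply, Equiv.symm_apply_apply,
    show (D.image σ).image σ.symm = D from by
      have := im_im_symm σ.symm D
      rwa [Equiv.symm_symm] at this] at h1

theorem piece_im : piece (cT b σ ω) (D.image σ) (φ e) = (piece ω D e).image φ := by
  ext e'
  rw [mem_im, mem_piece, mem_piece, ← eds_im h (e := φ.symm e'),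
    ← eqv_im_iff h (e' := φ.symm e'), Equiv.apply_symm_apply]

theorem pcs_im : pcs (cT b σ ω) (D.image σ) = (pcs ω D).image fun A => A.image φ := by
  unfold pcs
  rw [eds_tr' h, image_image, image_image]
  exact image_congr fun e _ => piece_im h

theorem isLp_im (hA : A ∈ pcs ω D) : IsLp (D.image σ) (A.image φ) ↔ IsLp D A := by
  have key : IsLp (D.image σ) (A.image φ) ↔ ∀ e ∈ A, hdv (φ e) ∈ D.image σ := by
    unfold IsLp
    rw [forall_mem_image]
  rw [key]
  cases b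
  · simp only [(h.sqF _).1, mem_im, Equiv.symm_apply_apply]
    rfl
  · simp only [(h.sqT _).1, mem_im, Equiv.symm_apply_apply]
    constructor
    · intro h
      by_contra hcon
      obtain ⟨e, he, he'⟩ := exists_entry hA hcon
      exact he' (h e he)
    · exact fun h e he => h.tl hA he

theorem potD_im {u : ℤ × ℤ → ℤ} (hu : PotD D A u) : PotD (D.image σ) (A.image φ)
    fun z => if b = false then u (τ.symm z) else - u (τ.symm z) := by
  intro e he
  have he' : φ.symm e ∈ eds D := by rw [← eds_im h, Equiv.apply_symm_apply]; exact he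
  have h1 := hu _ he'
  have h2 : (if e ∈ A.image φ then (1 : ℤ) else 0) = if φ.symm e ∈ A then 1 else 0 := by
    by_cases h : φ.symm e ∈ A
    · rw [if_pos h, if_pos ((mem_im _ _ _).2 h)]
    · rw [if_neg h, if_neg fun h' => h ((mem_im _ _ _).1 h')]
  rw [h2]
  cases b
  · obtain ⟨-, -, g1, g2⟩ := h.sqF (φ.symm e)
    rw [Equiv.apply_symm_apply] at g1 g2
    simp only [if_true]
    rw [g1, g2, Equiv.symm_apply_apply, Equiv.symm_apply_apply]
    exact h1
  · obtain ⟨-, -, g1, g2⟩ := h.sqT (φ.symm e)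
    rw [Equiv.apply_symm_apply] at g1 g2
    simp only [Bool.true_eq_false, if_false]
    rw [g1, g2, Equiv.symm_apply_apply, Equiv.symm_apply_apply, h1]
    ring

theorem sep_im_aux {z z' : ℤ × ℤ} (hs : Sep D A z z') :
    Sep (D.image σ) (A.image φ) (τ z) (τ z') := by
  obtain ⟨u, hu, hne⟩ := hs
  refine ⟨_, potD_im h hu, ?_⟩
  simp only [Equiv.symm_apply_apply]
  split_ifs
  · exact hne
  · simpa using hne

theorem sep_im {z z' : ℤ × ℤ} :
    Sep (D.image σ) (A.image φ) (τ z) (τ z') ↔ Sep D A z z' := by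
  refine ⟨fun hh => ?_, sep_im_aux h⟩
  have h1 := sep_im_aux h.symm hh
  rwa [show (D.image σ).image σ.symm = D from by
      have := im_im_symm σ.symm D
      rwa [Equiv.symm_symm] at this,
    show (A.image φ).image φ.symm = A from by
      have := im_im_symm φ.symm A
      rwa [Equiv.symm_symm] at this, Equiv.symm_apply_apply, Equiv.symm_apply_apply] at h1

omit h in
theorem mem_sites_face {z : ℤ × ℤ} : z ∈ sites D ↔ ∃ r, face z r ∈ D := by
  rw [mem_sites]
  obtain ⟨x, y⟩ := z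
  have f0 : face (x, y) 0 = (x + 0, y + 0) := rfl
  have f1 : face (x, y) 1 = (x + -1, y + 0) := rfl
  have f2 : face (x, y) 2 = (x + -1, y + -1) := rfl
  have f3 : face (x, y) 3 = (x + 0, y + -1) := rfl
  constructor
  · rintro ⟨⟨v, w⟩, hv, h1, h2⟩
    simp only at h1 h2
    rcases h1 with h1 | h1 <;> rcases h2 with h2 | h2
    · exact ⟨0, by rw [f0]; convert hv using 2 <;> omega⟩
    · exact ⟨3, by rw [f3]; convert hv using 2 <;> omega⟩
    · exact ⟨1, by rw [f1]; convert hv using 2 <;> omega⟩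
    · exact ⟨2, by rw [f2]; convert hv using 2 <;> omega⟩
  · rintro ⟨r, hr⟩
    refine ⟨_, hr, ?_⟩
    fin_cases r
    · show (x = x + 0 ∨ x = x + 0 + 1) ∧ (y = y + 0 ∨ y = y + 0 + 1)
      omega
    · show (x = x + -1 ∨ x = x + -1 + 1) ∧ (y = y + 0 ∨ y = y + 0 + 1)
      omega
    · show (x = x + -1 ∨ x = x + -1 + 1) ∧ (y = y + -1 ∨ y = y + -1 + 1)
      omega
    · show (x = x + 0 ∨ x = x + 0 + 1) ∧ (y = y + -1 ∨ y = y + -1 + 1)
      omega

theorem sites_im : sites (D.image σ) = (sites D).image τ := by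
  ext z
  rw [mem_im, mem_sites_face, mem_sites_face]
  have key : ∀ r, face z (r + c) ∈ D.image σ ↔ face (τ.symm z) r ∈ D := by
    intro r
    have h1 := h.face (τ.symm z) r
    rw [Equiv.apply_symm_apply] at h1
    rw [← h1, mem_im, Equiv.symm_apply_apply]
  constructor
  · rintro ⟨r, hr⟩
    refine ⟨r - c, (key _).1 ?_⟩
    rwa [sub_add_cancel]
  · rintro ⟨r, hr⟩
    exact ⟨r + c, (key _).2 hr⟩

theorem mass_im (p : ℤ × ℤ) (f : ℤ × ℤ → ℝ) :
    mass (D.image σ) (τ p) (fun z => f (τ.symm z)) (A.image φ) = mass D p f A := by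
  classical
  unfold mass
  rw [sites_im h, sum_image fun x _ y _ hh => τ.injective hh]
  refine sum_congr rfl fun z _ => ?_
  have hs := sep_im h (D := D) (A := A) (z := z) (z' := p)
  by_cases hz : Sep D A z p
  · rw [if_pos (hs.2 hz), if_pos hz]
    simp only [Equiv.symm_apply_apply]
  · rw [if_neg fun h' => hz (hs.1 h'), if_neg hz]

end

end Vale.Agent.P167.H980.ND
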