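import Vale.Agent.P167.H980.ND.Dual
import Vale.Agent.P167.H718.Par3

/-!
# P167, general `q`, block ND-CONT: the wired polygon is the dual of the free polygon

`wired_free`: the functional of a wired polygon is the functional of the free polygon which is shifted
by `(1, 0)`.
-/

namespace Vale.Agent.P167.H980.ND

open Finset Relation Vale.Agent.P167 Vale.Agent.P167.BR
open Vale.Agent.P167.FK (mem_im Ex cf Good eta0 du shE shV syR_du good_eta0)
open Vale.Agent.P167.H135 (fx)
open Vale.Agent.P167.E6 (dir face IsPolygon Encloses)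
open Vale.Agent.P145.FB (PStep)
open Vale.Agent.P167.H718 (Dob OutC)

variable {η : Cfg} {n : ℕ} {q : ZMod n → ℤ × ℤ} {D : Finset (ℤ × ℤ)}

theorem cT_du (ω : Cfg) : cT true shV ω = du ω := rfl

theorem ev_succ {x y : ℤ} : Even (x + 1 + y) ↔ ¬ Even (x + y) := by
  simp only [Int.even_iff]; omega

theorem ev_pred {x y : ℤ} : Even (x - 1 + 1 + y) ↔ Even (x + y) := by
  simp only [Int.even_iff]; omega

/-- The odd translation by `(1, 0)`. -/
theorem lsym_du : Lsym true shE shV shV 0 where
  dir v r := by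
    rw [add_zero]
    ext
    · show v.1 + (dir r).1 + 1 = v.1 + 1 + (dir r).1
      ring
    · rfl
  face v r := by
    rw [add_zero]
    unfold face
    ext
    · exact add_right_comm v.1 _ 1
    · rfl
  ce v r := by
    rw [add_zero]
    obtain ⟨x, y⟩ := v
    fin_cases r
    · rfl
    · show Sum.inl (x - 1 + 1, y) = Sum.inl (x + 1 - 1, y)
      simp
    · show Sum.inr (x - 1 + 1, y - 1) = Sum.inr (x + 1 - 1, y - 1)
      simp
    · show Sum.inl (x - 1 + 1, y - 1) = Sum.inl (x + 1 - 1, y - 1)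
      simp
  par v := by
    show Even (v.1 + 1 + v.2) ↔ _
    rw [ev_succ]
    simp
  nxf h := absurd h (by decide)
  nxt _ ω e := (syR_du ω).n e

theorem shV_symm (v : ℤ × ℤ) : shV.symm v = v - (1, 0) := by
  ext
  · rfl
  · exact (sub_zero v.2).symm

theorem shV_apply (v : ℤ × ℤ) : shV v = v + (1, 0) := by
  ext
  · rfl
  · exact (add_zero v.2).symm

theorem no_out (h : ∀ v : ℤ × ℤ, η v = false) {s t : ℤ × ℤ} (hs : OutC η D s t) : s = t := by
  unfold OutC at hs
  induction hs with
  | refl => rfl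
  | tail _ h2 _ =>
    have h3 := h2.2.2.1
    rw [op, Set.mem_ofPred_eq, h _] at h3
    exact absurd h3 (by decide)

/-- The free polygon. -/
theorem dob_free (D : Finset (ℤ × ℤ)) (q : ZMod n → ℤ × ℤ) : Dob eta0 D q n where
  good := good_eta0
  join i j h1 h2 h3 h4 _ _ := by
    have e1 : i = n := le_antisymm h2 h1
    have e2 : j = n := le_antisymm h4 h3
    subst e1
    subst e2
    exact ReflTransGen.refl
  sep s _ t _ _ h hne := absurd (no_out (fun _ => rfl) h) hne

/-- **The wired polygon is the dual of the free polygon.** -/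
theorem wired_free (hq : IsPolygon q) (hD : Encloses q D) (hη : Dob η D q 0) {Q : ℝ} (hQ : 0 < Q)
    (θ β : ℝ) (F : ℤ × ℤ → ℝ) :
    Dob eta0 (D.image (· + (1, 0))) (fun i => q i + (1, 0)) n ∧
    IsPolygon (fun i => q i + (1, 0)) ∧ Encloses (fun i => q i + (1, 0)) (D.image (· + (1, 0))) ∧
    Ex Q D η (QX.XB θ β q D 0 F) = Ex Q (D.image (· + (1, 0))) eta0
      (QX.XB θ β (fun i => q i + (1, 0)) (D.image (· + (1, 0))) n fun z => F (z - (1, 0))) := by
  refine ⟨dob_free _ _, H718.poly_add hq _, H718.encl_add hD _, ?_⟩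
  have e1 : D.image (· + (1, 0)) = D.image shV := image_congr fun v _ => (shV_apply v).symm
  have e2 : (fun i => q i + (1, 0)) = fun i => shV (q i) := funext fun i => (shV_apply _).symm
  have e3 : (fun z => F (z - (1, 0))) = fun z => F (shV.symm z) :=
    funext fun z => by rw [shV_symm]
  rw [e1, e2, e3]
  exact (Ex_XB_im lsym_du (Or.inr ⟨rfl, Or.inl ⟨rfl, rfl⟩⟩) hq hD hη (dob_free _ _) hQ θ β F).symm

/-- The free polygon is the dual of the wired polygon. -/
theorem free_wired {η' : Cfg} (hq : IsPolygon q) (hD : Encloses q D) (hη : Dob η D q n)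
    (hη' : Dob η' (D.image (· + (1, 0))) (fun i => q i + (1, 0)) 0) {Q : ℝ} (hQ : 0 < Q)
    (θ β : ℝ) (F : ℤ × ℤ → ℝ) :
    Ex Q D η (QX.XB θ β q D n F) = Ex Q (D.image (· + (1, 0))) η'
      (QX.XB θ β (fun i => q i + (1, 0)) (D.image (· + (1, 0))) 0 fun z => F (z - (1, 0))) := by
  have e1 : D.image (· + (1, 0)) = D.image shV := image_congr fun v _ => (shV_apply v).symm
  have e2 : (fun i => q i + (1, 0)) = fun i => shV (q i) := funext fun i => (shV_apply _).symm
  have e3 : (fun z => F (z - (1, 0))) = fun z => F (shV.symm z) :=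
    funext fun z => by rw [shV_symm]
  rw [e1, e2] at hη'
  rw [e1, e2, e3]
  exact (Ex_XB_im lsym_du (Or.inr ⟨rfl, Or.inr ⟨rfl, rfl⟩⟩) hq hD hη hη' hQ θ β F).symm

end Vale.Agent.P167.H980.ND
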